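import Vale.Agent.P325.H111.K2.Stmts
import Vale.Agent.P325.H111.Inst
import Vale.Agent.P342.H472.Gam

/-!
# The constraints of the instance, the number of violated constraints
-/

namespace Vale.Agent.P325.H183

open Finset Vale.Agent.Lib.PCP Vale.Agent.P342 Vale.Agent.P325.K2

/-! ### Tuples -/

theorem sum_map_get {α : Type} (G : List α) (f : α → ℝ) :
    (G.map f).sum = ∑ i : Fin G.length, f (G.get i) := by
  have h : (List.finRange G.length).map G.get = G := List.map_get_finRange _
  conv_lhs => rw [← h]
  rw [List.map_map, ← List.ofFn_eq_map, List.sum_ofFn]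
  rfl

theorem sum_flatMap_real {α : Type} (l : List α) (f : α → List ℝ) :
    (l.flatMap f).sum = (l.map fun x => (f x).sum).sum := by
  induction l with
  | nil => rfl
  | cons x l ih => rw [List.flatMap_cons, List.sum_append, List.map_cons, List.sum_cons, ih]

theorem sum_tuples {α : Type} (G : List α) (l : ℕ) (h : (Fin l → α) → ℝ) :
    ((Red.tuples G l).map h).sum = ∑ p : Fin l → Fin G.length, h fun b => G.get (p b) := by
  induction l with
  | zero =>
    simp only [Red.tuples, List.map_cons, List.map_nil, List.sum_cons, List.sum_nil, add_zero,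
      Finset.univ_unique, Finset.sum_singleton]
    congr 1
    funext i
    exact i.elim0
  | succ l ih =>
    rw [Red.tuples, List.map_flatMap, sum_flatMap_real, ih]
    rw [← Fintype.sum_equiv (Fin.consEquiv fun _ : Fin (l + 1) => Fin G.length)
      (fun p => h (fun b => G.get (Fin.cons (α := fun _ => Fin G.length) p.1 p.2 b)))
      (fun p => h fun b => G.get (p b)) (fun p => rfl), Fintype.sum_prod_type_right]
    refine Finset.sum_congr rfl fun p _ => ?_
    rw [List.map_map, sum_map_get]
    refine Finset.sum_congr rfl fun c _ => ?_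
    rw [Function.comp_apply]
    congr 1
    funext b
    refine Fin.cases ?_ (fun i => ?_) b
    · simp
    · simp

/-- All functions from a finite type to the set of elements of a list. -/
noncomputable def tupW (S : Type) [Fintype S] {α : Type} (G : List α) : List (S → α) :=
  (Red.tuples G (Fintype.card S)).map fun t s => t (Fintype.equivFin S s)

theorem sum_tupW (S : Type) [Fintype S] [DecidableEq S] {α : Type} (G : List α)
    (h : (S → α) → ℝ) :
    ((tupW S G).map h).sum = ∑ p : S → Fin G.length, h fun s => G.get (p s) := by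
  rw [tupW, List.map_map, sum_tuples]
  exact Fintype.sum_equiv (Equiv.arrowCongr (Fintype.equivFin S).symm (Equiv.refl _)) _ _
    fun p => rfl

/-! ### Folding -/

variable {n N r : ℕ}

/-- The names of the vertices: a window, a question, a table. -/
abbrev Nm (n N r : ℕ) : Type := Win n N × (Win n N → Ed r) × (Lab n N r → Bool)

/-- The canonical one of two opposite tables. -/
def rep [NeZero r] (φ : Lab n N r → Bool) : Lab n N r → Bool :=
  fun ν => xor (φ ν) (φ fun _ => 0)

theorem rep_not [NeZero r] (φ : Lab n N r → Bool) : rep (fun ν => !φ ν) = rep φ := by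
  funext ν
  simp [rep]

/-- The identity or the transposition. -/
def pm (b : Bool) : Equiv.Perm (Fin 2) := if b then Equiv.swap 0 1 else 1

/-- The constraint that the values of two tables are equal. -/
def ceq [NeZero r] (c : Win n N) (q : Win n N → Ed r) (φ : Lab n N r → Bool) (c' : Win n N)
    (q' : Win n N → Ed r) (φ' : Lab n N r → Bool) :
    Nm n N r × Nm n N r × Equiv.Perm (Fin 2) :=
  ((c, q, rep φ), (c', q', rep φ'), pm (xor (φ fun _ => 0) (φ' fun _ => 0)))

/-- The assignment of a labeling. -/
def asg [NeZero r] (g : Nm n N r → Fin 2) : Asg n N r :=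
  fun c q φ => xor (decide (g (c, q, rep φ) = 1)) (φ fun _ => 0)

theorem asg_odd [NeZero r] (g : Nm n N r → Fin 2) : Odd' (asg g) := by
  intro c q φ
  simp only [asg, rep_not]
  simp

theorem pm_iff : ∀ (x y : Fin 2) (s t : Bool),
    (y = pm (xor s t) x) ↔ xor (decide (x = 1)) s = xor (decide (y = 1)) t := by
  decide

theorem sat_ceq [NeZero r] (g : Nm n N r → Fin 2) (c : Win n N) (q : Win n N → Ed r)
    (φ : Lab n N r → Bool) (c' : Win n N) (q' : Win n N → Ed r) (φ' : Lab n N r → Bool) :
    (g (ceq c q φ c' q' φ').2.1 = (ceq c q φ c' q' φ').2.2 (g (ceq c q φ c' q' φ').1)) ↔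
      asg g c q φ = asg g c' q' φ' :=
  pm_iff _ _ _ _

/-- Every odd assignment comes from a labeling. -/
theorem exists_asg [NeZero r] (A : Asg n N r) (hA : Odd' A) : ∃ g : Nm n N r → Fin 2, asg g = A := by
  refine ⟨fun p => if A p.1 p.2.1 p.2.2 then 1 else 0, ?_⟩
  funext c q φ
  have h1 : ∀ b : Bool, decide ((if b = true then (1 : Fin 2) else 0) = 1) = b := by decide
  simp only [asg, h1]
  rcases h : φ (fun _ => 0) with _ | _
  · have : rep φ = φ := by
      funext ν
      simp [rep, h]
    simp [this]
  · have : rep φ = fun ν => !φ ν := by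
      funext ν
      simp [rep, h]
    rw [this, hA]
    simp

/-! ### The constraints -/

variable {L W m : ℕ}

/-- The indices of the constraints of a tuple of constraints of the game. -/
abbrev Ji (n N r L W m : ℕ) : Type :=
  (Win n N × (Fin n → Fin L)) × Sd n N r L × (Lab n N r ⊕ (Fin W × Fin n × Fin N)) × Fin (m + 1)

section

variable [NeZero n] [NeZero L] [NeZero r]

/-- The first table. -/
noncomputable def tb1 (π : Win n N → Fin r → Fin r) (j : Ji n N r L W m) : Lab n N r → Bool :=
  tbl j.1.2 j.2.1 (adr π j.1.1)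

/-- The second window. -/
def wi2 (j : Ji n N r L W m) : Win n N :=
  if j.2.2.2 = 0 then
    Sum.elim (fun _ => j.1.1) (fun s => if j.1.2 s.2.1 = 0 ∧ j.1.2 ≠ 0 then
      Function.update j.1.1 s.2.1 s.2.2 else j.1.1) j.2.2.1
  else j.1.1

open Classical in
/-- The second table. -/
noncomputable def tb2 (π : Win n N → Fin r → Fin r) (j : Ji n N r L W m) : Lab n N r → Bool :=
  if j.2.2.2 = 0 then
    Sum.elim (fun ν => if near j.1.2 j.2.1 (adr π j.1.1 ν) then flipAt (tb1 π j) ν else tb1 π j)
      (fun s => if j.1.2 s.2.1 = 0 ∧ j.1.2 ≠ 0 then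
        tbl j.1.2 j.2.1 (adr π (Function.update j.1.1 s.2.1 s.2.2)) else tb1 π j) j.2.2.1
  else tb1 π j

/-- The constraint of the index `j`. -/
noncomputable def con (e : Win n N → Ed r) (j : Ji n N r L W m) :
    Nm n N r × Nm n N r × Equiv.Perm (Fin 2) :=
  ceq j.1.1 (qst j.1.1 e) (tb1 (prj e) j) (wi2 j) (qst (wi2 j) e) (tb2 (prj e) j)

/-- The list of constraints. -/
noncomputable def conL (L W m : ℕ) [NeZero L] (G : PG ℕ ℕ (Fin r) (Fin r)) :
    List (Nm n N r × Nm n N r × Equiv.Perm (Fin 2)) :=
  (tupW (Win n N) G).flatMap fun e => (univ : Finset (Ji n N r L W m)).toList.map fun j => con e j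

open Classical in
/-- The indicator of violation. -/
noncomputable def vio (g : Nm n N r → Fin 2) (e : Win n N → Ed r) (j : Ji n N r L W m) : ℝ :=
  if asg g j.1.1 (qst j.1.1 e) (tb1 (prj e) j) = asg g (wi2 j) (qst (wi2 j) e) (tb2 (prj e) j)
    then 0 else 1

theorem sg_ne {a b : Bool} : sg a ≠ sg b ↔ a ≠ b := by
  cases a <;> cases b <;> norm_num [sg]

theorem sum_ite_Pr {α : Type} [Fintype α] [Nonempty α] (p : α → Prop) [DecidablePred p] :
    ∑ x, (if p x then (1 : ℝ) else 0) = Pr p * Fintype.card α := by
  classical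
  have : (Fintype.card α : ℝ) ≠ 0 := by exact_mod_cast Fintype.card_ne_zero
  rw [Pr, Ex, div_mul_cancel₀ _ this]
  refine Finset.sum_congr rfl fun x _ => ?_
  by_cases h : p x
  · rw [if_pos h, if_pos h]
  · rw [if_neg h, if_neg h]

theorem vio_inl (g : Nm n N r → Fin 2) (e : Win n N → Ed r) (c : Win n N) (a : Fin n → Fin L)
    (y : Sd n N r L) (ν : Lab n N r) :
    ∑ i, vio g e (((c, a), y, .inl ν, i) : Ji n N r L W m) =
      (open Classical in if near a y (adr (prj e) c ν) ∧ pivt (asg g c (qst c e)) (adr (prj e) c) a y ν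
        then 1 else 0) := by
  classical
  rw [Fin.sum_univ_succ, Finset.sum_eq_zero (s := univ), add_zero]
  · simp only [vio, wi2, tb2, if_true, Sum.elim_inl]
    by_cases h : near a y (adr (prj e) c ν)
    · simp only [h, if_true, true_and, pivt, tb1]
      by_cases h' : asg g c (qst c e) (tbl a y (adr (prj e) c)) =
          asg g c (qst c e) (flipAt (tbl a y (adr (prj e) c)) ν)
      · simp [h']
      · simp [h', Ne.symm h']
    · simp [h]
  · intro i _
    simp [vio, wi2, tb2, Fin.succ_ne_zero]

theorem vio_inr (g : Nm n N r → Fin 2) (e : Win n N → Ed r) (c : Win n N) (a : Fin n → Fin L)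
    (y : Sd n N r L) (s : Fin W × Fin n × Fin N) :
    ∑ i, vio g e (((c, a), y, .inr s, i) : Ji n N r L W m) =
      (open Classical in if (a s.2.1 = 0 ∧ a ≠ 0) ∧
        Fz (asg g) e c a y ≠ Fz (asg g) e (Function.update c s.2.1 s.2.2) a y
        then 1 else 0) := by
  classical
  rw [Fin.sum_univ_succ, Finset.sum_eq_zero (s := univ), add_zero]
  · simp only [vio, wi2, tb2, if_true, Sum.elim_inr]
    by_cases h : a s.2.1 = 0 ∧ a ≠ 0
    · simp only [h, if_true, true_and, Fz, FF, tb1, sg_ne, ne_eq, not_false_eq_true, and_self]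
      by_cases h' : asg g c (qst c e) (tbl a y (adr (prj e) c)) =
          asg g (Function.update c s.2.1 s.2.2) (qst (Function.update c s.2.1 s.2.2) e)
            (tbl a y (adr (prj e) (Function.update c s.2.1 s.2.2)))
      · simp [h']
      · simp [h']
    · simp [h]
  · intro i _
    simp [vio, wi2, tb2, Fin.succ_ne_zero]

theorem sum_vio (g : Nm n N r → Fin 2) (e : Win n N → Ed r) :
    ∑ j : Ji n N r L W m, vio g e j =
      (∑ z : Win n N × (Fin n → Fin L), (c1 (asg g) e z.1 z.2 +
        W * ∑ k, ∑ j, c3 (asg g) e z.1 z.2 k j)) * Fintype.card (Sd n N r L) := by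
  classical
  rw [Fintype.sum_prod_type, Finset.sum_mul]
  refine Finset.sum_congr rfl fun z _ => ?_
  obtain ⟨c, a⟩ := z
  rw [Fintype.sum_prod_type]
  simp only [Fintype.sum_prod_type (α₁ := Lab n N r ⊕ (Fin W × Fin n × Fin N)),
    Fintype.sum_sum_type, vio_inl, vio_inr]
  rw [Finset.sum_add_distrib, add_mul]
  congr 1
  · rw [Finset.sum_comm, c1, cost1, Finset.sum_mul]
    refine Finset.sum_congr rfl fun ν _ => ?_
    exact sum_ite_Pr (α := Sd n N r L) _
  · rw [Finset.sum_comm]
    have h3 : ∀ s : Fin W × Fin n × Fin N, (∑ y : Sd n N r L,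
        if (a s.2.1 = 0 ∧ a ≠ 0) ∧
          Fz (asg g) e c a y ≠ Fz (asg g) e (Function.update c s.2.1 s.2.2) a y
        then (1 : ℝ) else 0) = c3 (asg g) e c a s.2.1 s.2.2 * Fintype.card (Sd n N r L) := by
      intro s
      rw [c3]
      by_cases h : a s.2.1 = 0 ∧ a ≠ 0
      · rw [if_pos h, ← sum_ite_Pr (α := Sd n N r L)]
        refine Finset.sum_congr rfl fun y _ => ?_
        by_cases h' : Fz (asg g) e c a y ≠ Fz (asg g) e (Function.update c s.2.1 s.2.2) a y
        · rw [if_pos ⟨h, h'⟩, if_pos h']
        · rw [if_neg h', if_neg fun h'' => h' h''.2]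
      · rw [if_neg h, zero_mul]
        refine Finset.sum_eq_zero fun y _ => ?_
        rw [if_neg fun h' => h h'.1]
    refine (Finset.sum_congr rfl fun s _ => h3 s).trans ?_
    rw [Fintype.sum_prod_type]
    simp only [Finset.sum_const, Finset.card_univ, Fintype.card_fin, nsmul_eq_mul]
    rw [mul_assoc]
    congr 1
    rw [Fintype.sum_prod_type]
    simp only [Finset.sum_mul]

theorem countP_not_eq {α : Type} (l : List α) (p : α → Prop) [DecidablePred p] :
    ((l.countP fun x => !decide (p x) : ℕ) : ℝ) = (l.map fun x => if p x then (0 : ℝ) else 1).sum := by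
  induction l with
  | nil => simp
  | cons x l ih =>
    rw [List.countP_cons, List.map_cons, List.sum_cons, ← ih]
    by_cases h : p x <;> simp [h, add_comm]

/-- The number of all tests divided by the number of seeds and weights. -/
noncomputable def Bc (n N r W m : ℕ) : ℝ :=
  (Fintype.card (Lab n N r) + W * (n * N)) * (m + 1)

omit [NeZero n] [NeZero L] [NeZero r] in
theorem card_Ji : (Fintype.card (Ji n N r L W m) : ℝ) =
    Fintype.card (Win n N × (Fin n → Fin L)) * Fintype.card (Sd n N r L) * Bc n N r W m := by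
  rw [Bc]
  simp only [Ji, Fintype.card_prod, Fintype.card_sum, Fintype.card_fin, Nat.cast_mul, Nat.cast_add,
    Nat.cast_one]
  ring

theorem length_conL (G : PG ℕ ℕ (Fin r) (Fin r)) :
    ((conL (n := n) (N := N) L W m G).length : ℝ) =
      Fintype.card (Win n N → Fin G.length) * Fintype.card (Ji n N r L W m) := by
  have h1 : ∀ l : List (Nm n N r × Nm n N r × Equiv.Perm (Fin 2)),
      (l.length : ℝ) = (l.map fun _ => (1 : ℝ)).sum := by
    intro l
    simp
  rw [h1, conL, List.map_flatMap, sum_flatMap_real, sum_tupW]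
  simp only [List.map_map]
  simp

theorem count_conL (g : Nm n N r → Fin 2) (G : PG ℕ ℕ (Fin r) (Fin r)) (hG : G ≠ []) :
    (((conL (n := n) (N := N) L W m G).countP fun c => !decide (g c.2.1 = c.2.2 (g c.1)) : ℕ) : ℝ) *
      Bc n N r W m = cost L W G (asg g) * (conL (n := n) (N := N) L W m G).length := by
  classical
  have hne : Nonempty (Fin G.length) := ⟨⟨0, List.length_pos_iff.2 hG⟩⟩
  have hN : Nonempty (Win n N × (Fin n → Fin L)) ∨ IsEmpty (Win n N × (Fin n → Fin L)) := by
    rcases isEmpty_or_nonempty (Win n N × (Fin n → Fin L)) with h | h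
    · exact Or.inr h
    · exact Or.inl h
  rw [length_conL, countP_not_eq, conL, List.map_flatMap, sum_flatMap_real, sum_tupW]
  have h1 : ∀ p : Win n N → Fin G.length,
      (((univ : Finset (Ji n N r L W m)).toList.map fun j => con (fun s => G.get (p s)) j).map
        fun c => if g c.2.1 = c.2.2 (g c.1) then (0 : ℝ) else 1).sum =
      (∑ z : Win n N × (Fin n → Fin L), (c1 (asg g) (eo G p) z.1 z.2 +
        W * ∑ k, ∑ j, c3 (asg g) (eo G p) z.1 z.2 k j)) * Fintype.card (Sd n N r L) := by
    intro p
    rw [List.map_map, Finset.sum_map_toList, ← sum_vio (m := m)]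
    refine Finset.sum_congr rfl fun j _ => ?_
    simp only [Function.comp_apply, con, sat_ceq, vio]
    rfl
  simp only [h1]
  rw [card_Ji, cost, Ex, ← Finset.sum_mul, Fintype.sum_prod_type]
  rcases hN with hN | hN
  · have h2 : (Fintype.card ((Win n N → Fin G.length) × Win n N × (Fin n → Fin L)) : ℝ) ≠ 0 := by
      exact_mod_cast Fintype.card_ne_zero
    have h3 : (Fintype.card ((Win n N → Fin G.length) × Win n N × (Fin n → Fin L)) : ℝ) =
      Fintype.card (Win n N → Fin G.length) * Fintype.card (Win n N × (Fin n → Fin L)) := by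
      rw [Fintype.card_prod]; push_cast; rfl
    rw [h3] at h2 ⊢
    field_simp
  · simp

end

end Vale.Agent.P325.H183
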