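import Vale.Agent.P325.H183.K2.SrcU
import Vale.Agent.P325.H183.K2.Cst

/-!
# The reduction
-/

namespace Vale.Agent.P325.H183

open Finset Vale.Agent.Lib.PCP Vale.Agent.Lib.PolyTime Vale.Agent.P342 Vale.Agent.P325.K2
  Vale.Agent.P325.H111

/-! ### Polynomial time -/

section PT

variable {A : Set Word} {γ : Type} [Enc γ] {n N r L W m : ℕ}

theorem PT_tupW (S : Type) [Fintype S] {α : Type} [Enc α] {G : γ → List α} (hG : PT A G) :
    PT A (fun a => tupW S (G a)) :=
  PT.map (f := fun (_ : γ) (t : Fin (Fintype.card S) → α) => fun s => t (Fintype.equivFin S s))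
    (Red.PT_tuples hG _) (PT.funMk fun s => PT.funAt PT.snd' _)

theorem PT_prj {e : γ → Win n N → Ed r} (he : PT A e) : PT A (fun a => prj (e a)) :=
  PT.funMk fun b => (PT.funAt he b).snd.snd

theorem PT_qst {e : γ → Win n N → Ed r} (he : PT A e) (c : Win n N) :
    PT A (fun a => qst c (e a)) := by
  refine PT.funMk fun b => ?_
  have hb : PT A (fun a => e a b) := PT.funAt he b
  unfold qst
  by_cases h : b = c
  · simp only [h, if_true]
    exact (h ▸ hb : PT A (fun a => e a c)).fst.pair ((PT.const 0).pair (PT.const id))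
  · by_cases h' : Dj b c
    · simp only [h, h', if_false, if_true]
      exact (PT.const 0).pair (hb.snd.fst.pair (PT.const id))
    · simp only [h, h', if_false]
      exact hb

variable [NeZero n] [NeZero L] [NeZero r]

theorem PT_con (j : Ji n N r L W m) : PT A (fun e : Win n N → Ed r =>
    ((con e j).1, (con e j).2.1, permL (con e j).2.2)) := by
  have h1 : PT A (fun e : Win n N → Ed r => prj e) := PT_prj PT.id
  refine ((PT.const j.1.1).pair ((PT_qst PT.id j.1.1).pair
    (PT.finComp (fun π => rep (tb1 π j)) h1))).pair (PT.pair ?_ ?_)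
  · exact (PT.const (wi2 j)).pair ((PT_qst PT.id (wi2 j)).pair
      (PT.finComp (fun π => rep (tb2 π j)) h1))
  · exact PT.finComp (fun π => permL (pm (xor (tb1 π j fun _ => 0) (tb2 π j fun _ => 0)))) h1

theorem PT_conL {G : γ → PG ℕ ℕ (Fin r) (Fin r)} (hG : PT A G) :
    PT A (fun a => (conL (n := n) (N := N) L W m (G a)).map
      fun c => (c.1, c.2.1, permL c.2.2)) := by
  have h1 : PT A (fun a => (tupW (Win n N) (G a)).flatMap fun e =>
      (univ : Finset (Ji n N r L W m)).toList.map fun j =>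
        ((con e j).1, (con e j).2.1, permL (con e j).2.2)) :=
    PT.flatMap (f := fun (_ : γ) (e : Win n N → Ed r) =>
      (univ : Finset (Ji n N r L W m)).toList.map fun j =>
        ((con e j).1, (con e j).2.1, permL (con e j).2.2)) (PT_tupW (Win n N) hG)
      (PT.mapConst _ fun j _ => (PT_con j).comp PT.snd')
  refine h1.congr fun a => ?_
  rw [conL, List.map_flatMap]
  simp only [List.map_map]
  rfl

end PT

/-! ### The instance -/

section

noncomputable instance decNm {n N r : ℕ} : DecidableEq (Nm n N r) := Classical.decEq _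

variable {n N r L W m : ℕ} [NeZero n] [NeZero N] [NeZero L] [NeZero r]

theorem conL_pos {G : PG ℕ ℕ (Fin r) (Fin r)} (hG : G ≠ []) :
    (0 : ℝ) < (conL (n := n) (N := N) L W m G).length := by
  have hne : Nonempty (Fin G.length) := ⟨⟨0, List.length_pos_iff.2 hG⟩⟩
  rw [length_conL]
  have h1 : 0 < Fintype.card (Win n N → Fin G.length) := Fintype.card_pos
  have h2 : 0 < Fintype.card (Ji n N r L W m) :=
    Fintype.card_pos_iff.2 ⟨((fun _ => 0, fun _ => 0), fun _ => true, .inl fun _ => 0, 0)⟩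
  exact_mod_cast Nat.mul_pos h1 h2

theorem conL_ne {G : PG ℕ ℕ (Fin r) (Fin r)} (hG : G ≠ []) :
    conL (n := n) (N := N) L W m G ≠ [] := by
  intro h
  have h1 := conL_pos (n := n) (N := N) (L := L) (W := W) (m := m) hG
  rw [h] at h1
  simp at h1

/-- The instance of Unique Games. -/
noncomputable def ugK (n N L W m : ℕ) [NeZero n] [NeZero N] [NeZero L]
    (G : PG ℕ ℕ (Fin r) (Fin r)) (hG : G ≠ []) : Vale.Agent.P325.Inst 2 :=
  mkInst (conL (n := n) (N := N) L W m G) (conL_ne hG)

theorem ugK_code (G : PG ℕ ℕ (Fin r) (Fin r)) (hG : G ≠ []) :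
    (ugK n N L W m G hG).code = word (nums
      ((conL (n := n) (N := N) L W m G).map fun c => (c.1, c.2.1, permL c.2.2))) := by
  rw [ugK, mkInst_code]

theorem ugK_size (G : PG ℕ ℕ (Fin r) (Fin r)) (hG : G ≠ []) :
    (ugK n N L W m G hG).size =
      3 * (G.length ^ Fintype.card (Win n N) * Fintype.card (Ji n N r L W m)) := by
  rw [ugK, mkInst_size]
  congr 1
  have h1 := length_conL (n := n) (N := N) (L := L) (W := W) (m := m) G
  have h2 : Fintype.card (Win n N → Fin G.length) = G.length ^ Fintype.card (Win n N) := by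
    simp
  rw [h2] at h1
  exact_mod_cast h1

omit [NeZero N] in
theorem sat_count (g : Nm n N r → Fin 2) (G : PG ℕ ℕ (Fin r) (Fin r)) (hG : G ≠ []) :
    (((conL (n := n) (N := N) L W m G).countP fun c => decide (g c.2.1 = c.2.2 (g c.1)) : ℕ) : ℝ) *
      Bc n N r W m =
        (Bc n N r W m - cost L W G (asg g)) * (conL (n := n) (N := N) L W m G).length := by
  have h1 := count_conL (L := L) (W := W) (m := m) g G hG
  have h2 : (conL (n := n) (N := N) L W m G).length =
      (conL (n := n) (N := N) L W m G).countP (fun c => decide (g c.2.1 = c.2.2 (g c.1))) +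
      (conL (n := n) (N := N) L W m G).countP (fun c => !decide (g c.2.1 = c.2.2 (g c.1))) := by
    rw [List.length_eq_countP_add_countP (fun c => decide (g c.2.1 = c.2.2 (g c.1)))]
    congr 1
    refine List.countP_congr fun c _ => ?_
    simp
  have h3 : ((conL (n := n) (N := N) L W m G).length : ℝ) =
      ((conL (n := n) (N := N) L W m G).countP
        (fun c => decide (g c.2.1 = c.2.2 (g c.1))) : ℕ) +
      ((conL (n := n) (N := N) L W m G).countP
        (fun c => !decide (g c.2.1 = c.2.2 (g c.1))) : ℕ) := by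
    exact_mod_cast h2
  linear_combination (-Bc n N r W m) * h3 - h1

omit [NeZero n] [NeZero N] [NeZero L] in
theorem Bc_pos : 0 < Bc n N r W m := by
  have h : 0 < Fintype.card (Lab n N r) := Fintype.card_pos
  have h' : (0 : ℝ) < Fintype.card (Lab n N r) := by exact_mod_cast h
  unfold Bc
  positivity

theorem val_ge (G : PG ℕ ℕ (Fin r) (Fin r)) (hG : G ≠ []) (A : Asg n N r) (hA : Odd' A) :
    1 - cost L W G A / Bc n N r W m ≤ (ugK n N L W m G hG).val := by
  obtain ⟨g, rfl⟩ := exists_asg A hA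
  refine le_trans ?_ (mkInst_val_ge (conL (n := n) (N := N) L W m G) (conL_ne hG) g)
  have h1 := sat_count (L := L) (W := W) (m := m) g G hG
  have h2 := conL_pos (n := n) (N := N) (L := L) (W := W) (m := m) hG
  have h3 := Bc_pos (n := n) (N := N) (r := r) (W := W) (m := m)
  rw [le_div_iff₀ h2]
  have h4 : (1 - cost L W G (asg g) / Bc n N r W m) * Bc n N r W m =
      Bc n N r W m - cost L W G (asg g) := by field_simp
  rw [← h4, mul_right_comm] at h1
  exact (mul_right_cancel₀ h3.ne' h1).symm.le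

theorem val_le (G : PG ℕ ℕ (Fin r) (Fin r)) (hG : G ≠ []) (t : ℝ)
    (ht : ∀ A : Asg n N r, Odd' A → t ≤ cost L W G A) :
    (ugK n N L W m G hG).val ≤ 1 - t / Bc n N r W m := by
  refine mkInst_val_le (conL (n := n) (N := N) L W m G) (conL_ne hG) _ fun g => ?_
  have h1 := sat_count (L := L) (W := W) (m := m) g G hG
  have h2 := conL_pos (n := n) (N := N) (L := L) (W := W) (m := m) hG
  have h3 := Bc_pos (n := n) (N := N) (r := r) (W := W) (m := m)
  have h4 : (1 - cost L W G (asg g) / Bc n N r W m) * Bc n N r W m =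
      Bc n N r W m - cost L W G (asg g) := by field_simp
  rw [← h4, mul_right_comm] at h1
  rw [mul_right_cancel₀ h3.ne' h1]
  refine mul_le_mul_of_nonneg_right ?_ h2.le
  have h5 := div_le_div_of_nonneg_right (ht (asg g) (asg_odd g)) h3.le
  linarith

end

theorem enc_mk (w : Word) : enc (Raw.mk w) = w := rfl

/-- Package R: the reduction. -/
theorem redThm : RedThm := by
  intro hS hC hN C
  obtain ⟨n, N, hn, hN', η, hη, h⟩ := hS (2 * max C 0)
  obtain ⟨r, hr0, hr⟩ := np_lcU hη
  obtain ⟨L, W, hL, hLW⟩ := h r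
  have hB : 0 < Bc n N r W 0 := Bc_pos
  have hnu : 0 < nu n L := hN n L (Nat.pos_of_ne_zero hL.out)
  set α : ℝ := nu n L / Bc n N r W 0 with hα
  have hα0 : 0 < α := div_pos hnu hB
  refine ⟨α, hα0, fun ε hε hεα Lang hLang => ?_⟩
  obtain ⟨Φ, g, hg, hg', hΦ⟩ := hr Lang hLang
  have hne : ∀ x, Φ x ≠ [] := fun x => (hΦ x).1
  set m : ℕ := ⌈α / ε⌉₊ - 1 with hm
  have h1 : 1 ≤ α / ε := by rwa [le_div_iff₀ hε, one_mul]
  have h2 : 1 ≤ ⌈α / ε⌉₊ := Nat.one_le_ceil_iff.2 (by linarith)
  have h3 : (m : ℝ) + 1 = ⌈α / ε⌉₊ := by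
    rw [hm]
    push_cast [Nat.cast_sub h2]
    ring
  have h4 : α / ε ≤ m + 1 := by rw [h3]; exact Nat.le_ceil _
  have h5 : (m : ℝ) + 1 ≤ 2 * (α / ε) := by
    rw [h3]
    have := (Nat.ceil_lt_add_one (a := α / ε) (by linarith)).le
    linarith
  have hm0 : (0 : ℝ) < m + 1 := by positivity
  have hBm : Bc n N r W m = Bc n N r W 0 * (m + 1) := by
    unfold Bc
    push_cast
    ring
  have h6 : nu n L / Bc n N r W m = α / (m + 1) := by rw [hBm, hα, div_div]
  have h7 : α / (m + 1) ≤ ε := by
    rw [div_le_iff₀ hm0]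
    rw [div_le_iff₀ hε] at h4
    linarith
  have h8 : ε / 2 ≤ α / (m + 1) := by
    rw [le_div_iff₀ hm0]
    have h9 : (m + 1) * ε ≤ 2 * α := by
      calc (m + 1) * ε ≤ 2 * (α / ε) * ε := mul_le_mul_of_nonneg_right h5 hε.le
        _ = 2 * α := by field_simp
    linarith
  refine ⟨fun x => ugK n N L W m (Φ x) (hne x), ?_, ?_, ?_, ?_⟩
  · -- the machine
    have h3 : PT ∅ (fun G : PG ℕ ℕ (Fin r) (Fin r) => Raw.mk (word (nums
        ((conL (n := n) (N := N) L W m G).map fun c => (c.1, c.2.1, permL c.2.2))))) :=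
      PT_word (PT_nums (PT_conL PT.id))
    obtain ⟨G, hG, hG'⟩ := h3
    refine tm2_of_polyTimeFun _ _ _ (fun x => G (g x))
      (polyTimeFun_iff.2 (hG.comp hg)) fun x => ?_
    have h9 := hG' (Φ x)
    rw [← hg', enc_mk] at h9
    rw [ugK_code, h9]
  · -- the size
    obtain ⟨T, hT, -, hgT⟩ := hg.length_le
    obtain ⟨c, hc⟩ := hT
    have hlen : ∀ x, (Φ x).length ≤ pb c x.length := fun x => by
      have h3 := length_le_esize (Φ x)
      have h4 := hgT x
      rw [hg'] at h4
      exact h3.trans (h4.trans (hc _))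
    refine ⟨3 * ((2 ^ c) ^ Fintype.card (Win n N) * Fintype.card (Ji n N r L W m)),
      c * Fintype.card (Win n N), fun x => ?_⟩
    rw [ugK_size]
    have h3 : (Φ x).length ^ Fintype.card (Win n N) ≤
        (2 ^ c) ^ Fintype.card (Win n N) * (x.length + 1) ^ (c * Fintype.card (Win n N)) := by
      rw [pow_mul, ← mul_pow, ← mul_pow]
      exact Nat.pow_le_pow_left ((hlen x).trans (Nat.pow_le_pow_left (by omega) c)) _
    calc 3 * ((Φ x).length ^ Fintype.card (Win n N) * Fintype.card (Ji n N r L W m))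
        ≤ 3 * ((2 ^ c) ^ Fintype.card (Win n N) *
          (x.length + 1) ^ (c * Fintype.card (Win n N)) *
          Fintype.card (Ji n N r L W m)) := by gcongr
      _ = _ := by ring
  · -- completeness
    intro x hx
    obtain ⟨A, hA, hcost⟩ := hC n N r L W (Φ x) (hne x) ((hΦ x).2.1 hx)
    refine le_trans ?_ (val_ge (m := m) (Φ x) (hne x) A hA)
    rw [hcost, h6]
    linarith
  · -- soundness
    intro x hx
    have h9 := val_le (m := m) (Φ x) (hne x) (2 * max C 0 * nu n L)
      fun A hA => (hLW (Φ x) (hne x) ((hΦ x).2.2 hx) A hA).le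
    refine h9.trans ?_
    rw [mul_div_assoc, h6]
    have h10 : C * ε ≤ max C 0 * ε := mul_le_mul_of_nonneg_right (le_max_left _ _) hε.le
    have h11 : max C 0 * ε ≤ 2 * max C 0 * (α / (m + 1)) := by
      have h12 : 0 ≤ max C 0 := le_max_right _ _
      nlinarith
    linarith

end Vale.Agent.P325.H183
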