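import Vale.Agent.P342.H472.Src

/-!
# Gap label cover is hard for NP: the alphabet does not depend on the language
-/

namespace Vale.Agent.P325.H183

open Vale.Agent.Lib.PCP Vale.Agent.Lib.PolyTime Vale.Agent.P333 Vale.Agent.P333.NP
  Vale.Agent.P342.Red

/-- Every language in NP reduces in polynomial time to the gap problem for projection games; the
alphabet depends only on the soundness. -/
theorem np_lcU {η : ℝ} (hη : 0 < η) :
    ∃ (r : ℕ) (_ : NeZero r), ∀ L ∈ classNP, ∃ (Φ : List Bool → PG ℕ ℕ (Fin r) (Fin r))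
      (g : List Bool → List Bool), FP ∅ g ∧ (∀ x, g x = enc (Φ x)) ∧
      ∀ x, Φ x ≠ [] ∧ (x ∈ L → (Φ x).Perfect) ∧ (x ∉ L → (Φ x).Sound η) := by
  obtain ⟨S, _, _, s0, s1, γ, P, hs, hγ, hγ1, hPne, hPs, hPg, hP⟩ := pcp
  have hne : Nonempty (S × S) := ⟨(s0, s0)⟩
  set r := Fintype.card (S × S) with hr
  have hr0 : NeZero r := ⟨Fintype.card_ne_zero⟩
  let e : S × S ≃ Fin r := Fintype.equivFin (S × S)
  obtain ⟨k, hk⟩ := exists_pow (γ := γ / 2) (η := η) (by positivity) (by linarith) hη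
  have hPT : PT ∅ (fun φ : CNF3 => powG (triv (lcN e s0 s1 (P φ))) k) := by
    have h1 : PT ∅ (fun φ : CNF3 => lcN e s0 s1 (P φ)) := PT_lc s0 s1 (conv e s0) hP
    exact PT_powG (PT_triv h1) k
  obtain ⟨g, hg, hg'⟩ := hPT
  have hrk : NeZero (r ^ k) := ⟨(pow_pos (Nat.pos_of_ne_zero hr0.out) k).ne'⟩
  refine ⟨r ^ k, hrk, fun L hL => ?_⟩
  obtain ⟨V, p, ⟨MV⟩, hV⟩ := hL
  obtain ⟨W, hW, hW'⟩ := exists_FP_of_tm2 (A := ∅) MV
  have hW2 : ∀ x y, W (pr x y) = [V (x, y)] := by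
    intro x y
    rw [← hW' (x, y), pairW_eq]
  obtain ⟨F, hF, hF'⟩ := CL.cook_levin (L := L) hW p fun x => by
    rw [hV x]
    refine exists_congr fun y => and_congr_right fun _ => ?_
    rw [hW2]
    simp
  refine ⟨fun x => powG (triv (lcN e s0 s1 (P (F x)))) k, fun x => g (enc (F x)),
    hg.comp hF, fun x => hg' (F x), fun x => ⟨?_, ?_, ?_⟩⟩
  · exact powG_ne _ (triv_ne _ (lcN_ne e (hPne _))) k
  · intro hx
    exact powG_perfect _ (triv_perfect _ (lcN_perfect e (hPs _ ((hF' x).1 hx)))) k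
  · intro hx
    exact hk r _ (lcN_ne e (hPne _)) (lcN_sound e hs (hPg _ fun h => hx ((hF' x).2 h)))

end Vale.Agent.P325.H183
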